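import Vale.Agent.P216.T539.Psi
import Vale.Agent.P216.Ch2.D246.Span3
import Vale.Agent.P216.Ch2.D246.Dim
import Vale.Agent.P216.H140.RCls
import Vale.Agent.P216.D133.KSeq
import Vale.Agent.P216.H126L.Lip
import Vale.Agent.P216.H126L.Grp

/-!
# P216-T, C1: a Lipschitz map of degree one onto the three sphere

`col c : N → S3` collapses the complement of the coordinate cube `c`; it is injective on the third
cohomology; `exists_collapse`: a Lipschitz map with this property and a prescribed base point.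
-/

set_option linter.all false

open Set Filter Topology Quaternion

noncomputable section

namespace Vale.Agent.P216.T539

open Q633 Ch2.D246 Vale.Agent.P216.AS Vale.Agent.P216.Sl Vale.Agent.P216.PS
open Vale.Agent.P216.H140 Vale.Agent.P216.H901

section Col

variable {N : Type} [MetricSpace N] [CompactSpace N]

open Classical in
/-- the collapse of the complement of a coordinate cube -/
def col (c : Cub N 3) (x : N) : S3 := if x ∈ c.D then G (c.φ x) else pG

theorem col_of_mem {c : Cub N 3} {x : N} (hx : x ∈ c.D) : col c x = G (c.φ x) := if_pos hx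

theorem col_of_A1 {c : Cub N 3} {x : N} (hx : x ∈ c.A1 0 1) : col c x = pG := by
  by_cases h : x ∈ c.D
  · rw [col_of_mem h]
    have h1 : 1 ≤ ‖c.φ x - 0‖ := hx h
    rw [sub_zero] at h1
    exact G_out h1
  · exact if_neg h

theorem continuous_col (c : Cub N 3) : Continuous (col c) := by
  have h1 : ContinuousOn (col c) c.D :=
    (continuous_G.comp_continuousOn c.φ_cont).congr fun x hx => col_of_mem hx
  have h2 : ContinuousOn (col c) {x | x ∈ c.D ∧ ‖c.φ x‖ < 2}ᶜ :=
    (continuousOn_const (c := pG)).congr fun x hx => by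
      refine col_of_A1 fun hD => ?_
      rw [sub_zero]
      by_contra hlt
      exact hx ⟨hD, by linarith [not_le.1 hlt]⟩
  have h3 : c.D ∪ {x | x ∈ c.D ∧ ‖c.φ x‖ < 2}ᶜ = univ := by
    refine eq_univ_of_forall fun x => ?_
    by_cases hx : x ∈ c.D
    · exact Or.inl hx
    · exact Or.inr fun h => hx h.1
  rw [← continuousOn_univ, ← h3]
  exact h1.union_of_isClosed h2 c.closed c.open_int.isClosed_compl

theorem relH_col (c : Cub N 3) : Ch2.C313.RelH (univ : Set N) (c.A1 0 1) (univ : Set S3) {pG}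
    (col c) where
  cX := isCompact_univ
  cA := Cub.compact_A1 (by rw [norm_zero]; norm_num)
  cB := isCompact_singleton
  AX := subset_univ _
  BY := subset_univ _
  map := Ch2.C313.isMap_of isCompact_univ (continuous_col c).continuousOn (mapsTo_univ _ _)
  sub := fun x hx => mem_singleton_iff.2 (col_of_A1 hx)
  off := fun x _ hx h => by
    have hD : x ∈ c.D := by
      by_contra h1
      exact hx fun h2 => absurd h2 h1
    rw [mem_singleton_iff, col_of_mem hD] at h
    refine G_in ?_ h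
    by_contra h1
    refine hx fun _ => ?_
    rw [sub_zero]
    exact not_lt.1 h1
  inj := fun x _ hx x' _ hx' h => by
    have key : ∀ z, z ∉ c.A1 0 1 → z ∈ c.D ∧ ‖c.φ z‖ < 1 := fun z hz => by
      have hD : z ∈ c.D := by
        by_contra h1
        exact hz fun h2 => absurd h2 h1
      refine ⟨hD, ?_⟩
      by_contra h1
      refine hz fun _ => ?_
      rw [sub_zero]
      exact not_lt.1 h1
    obtain ⟨h1, h2⟩ := key x hx
    obtain ⟨h3, h4⟩ := key x' hx'
    rw [col_of_mem h1, col_of_mem h3] at h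
    rw [← c.ψφ x h1, G_inj h2 h4 h, c.ψφ x' h3]
  surj := fun y _ hy => by
    obtain ⟨u, hu, hy⟩ := G_surj (v := y) hy
    have h2 : ‖u‖ ≤ 2 := by linarith
    refine ⟨c.ψ u, mem_univ _, ?_⟩
    rw [col_of_mem (c.ψ_mem u h2), c.φψ u h2, hy]

/-- the cohomology of a point vanishes in positive degrees -/
theorem noH_single {k : Type} [Field k] (p : S3) (n : ℕ) :
    Ch2.H133C.NoH k ({p} : Set S3) ∅ (n + 1) := by
  intro z
  obtain ⟨f, hf, rfl⟩ := H.exists_mk z
  rw [H.mk_eq_zero]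
  obtain ⟨-, -, ε, hε, h1⟩ := mem_Zc_rel.1 hf
  refine Ch2.H670.Top0.small hε (A := {p}) (fun x hx => h1 x hx) subset_rfl
    fun x hx y hy => ?_
  rw [mem_singleton_iff.1 hx, mem_singleton_iff.1 hy, dist_self]
  exact hε

/-- **The collapse is injective on the third cohomology.** -/
theorem col_not_exL [ConnectedSpace N] (c : Cub N 3) (loc : LocEuc N 3) {k : Type} [Field k]
    {ω : Hr (tr N) (on k) (univ : Set N) ∅ 3} (hω : ω ≠ 0) {w : List S3 → k}
    (hw : CocL (univ : Set S3) 3 w) (hw0 : ¬ ExL (univ : Set S3) 3 w) :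
    ¬ ExL (univ : Set N) 3 (fun l => w (l.map (col c))) := by
  intro hex
  refine hw0 ?_
  have hB := noH_single (k := k) pG 2
  obtain ⟨y, hy⟩ := (Ch2.H83.les_ex1 k (subset_univ ({pG} : Set S3)) 3
    (clsR (tr S3) (on k) w hw.toR)).1 (hB _)
  have hR := relH_col c
  have h01 : ‖(0 : Fin 3 → ℝ)‖ + 1 ≤ 2 := by rw [norm_zero]; norm_num
  have h1 := (lesA_box_bij (k := k) (Ch2.ok k) (by norm_num) loc hω c 0 1 one_pos h01).1
  have h2 := (hR.bij (k := k) (Ch2.ok k) 3).1
  have h3 : Ch2.H83.lesA k (univ : Set N) (c.A1 0 1) 3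
      (pullR (on k) hR.map hR.AX hR.sub 3 y) =
      pullR (on k) hR.map (empty_subset _) (mapsTo_empty _ _) 3
        (Ch2.H83.lesA k (univ : Set S3) {pG} 3 y) := by
    obtain ⟨y, hy, rfl⟩ := H.exists_mk y
    rfl
  rw [hy, pullR_clsR] at h3
  have h4 : clsR (tr N) (on k) (fun l => w (l.map (col c)))
      (hw.toR.map hR.map (empty_subset _) (mapsTo_empty _ _)) = 0 := by
    refine clsR_eq_zero.2 ?_
    obtain ⟨g, hg, h⟩ := hex
    exact ⟨g, hg, vanL_empty, h⟩
  rw [h4] at h3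
  have h5 := h1 (h3.trans (map_zero _).symm)
  have h6 : y = 0 := h2 (h5.trans (map_zero _).symm)
  rw [h6, map_zero] at hy
  exact (clsR_eq_zero.1 hy.symm).exL

end Col

/-! ### Lipschitz approximation -/

section Lip

variable {N : Type} [MetricSpace N] [CompactSpace N]

theorem isometry_sphG3 : Isometry H126L.sphG3 := by
  refine Isometry.of_dist_eq fun x y => ?_
  change dist ((H126L.sphG3 x).1) ((H126L.sphG3 y).1) = dist x.1 y.1
  exact Quaternion.linearIsometryEquivTuple.symm.dist_map _ _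

/-- Lipschitz approximation of maps to the unit quaternions. -/
theorem exists_lip_S3 (e : C(N, S3)) {ε : ℝ} (hε : 0 < ε) : ∃ (f : C(N, S3)) (K : ℝ), 0 < K ∧
    (∀ x y, dist (f x) (f y) ≤ K * dist x y) ∧ ∀ x, dist (f x) (e x) ≤ ε := by
  obtain ⟨g, K, hK, hg⟩ := H126L.exists_lip
    (⟨fun x => H126L.sphG3.symm (e x), H126L.sphG3.symm.continuous.comp e.continuous⟩ :
      C(N, Metric.sphere (0 : EuclideanSpace ℝ (Fin 4)) 1)) hε
  refine ⟨⟨fun x => H126L.sphG3 (g x), H126L.sphG3.continuous.comp g.continuous⟩, K + 1,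
    by positivity, fun x y => ?_, fun x => ?_⟩
  · change dist (H126L.sphG3 (g x)) (H126L.sphG3 (g y)) ≤ _
    rw [isometry_sphG3.dist_eq]
    refine (hK.dist_le_mul x y).trans (mul_le_mul_of_nonneg_right ?_ dist_nonneg)
    linarith
  · have h1 := hg x
    rw [← isometry_sphG3.dist_eq] at h1
    change dist (H126L.sphG3 (g x)) (e x) ≤ ε
    have h2 : H126L.sphG3 (H126L.sphG3.symm (e x)) = e x := H126L.sphG3.apply_symm_apply _
    rw [← h2]
    exact h1

/-- the segment does not meet the origin -/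
theorem seg_ne {a b : S3} (h : dist a b < 1) {t : ℝ} (h0 : 0 ≤ t) (h1 : t ≤ 1) :
    (1 - t) • (a : ℍ[ℝ]) + t • (b : ℍ[ℝ]) ≠ 0 := by
  intro h2
  have h3 : (a : ℍ[ℝ]) = t • ((a : ℍ[ℝ]) - b) := by
    rw [sub_smul, one_smul] at h2
    have h5 : (a : ℍ[ℝ]) - t • (a : ℍ[ℝ]) + t • (b : ℍ[ℝ]) =
        (a : ℍ[ℝ]) - t • ((a : ℍ[ℝ]) - b) := by
      rw [smul_sub]
      abel
    exact sub_eq_zero.1 (h5.symm.trans h2)
  have h4 : ‖(a : ℍ[ℝ])‖ ≤ dist a b := by
    rw [Subtype.dist_eq, dist_eq_norm]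
    conv_lhs => rw [h3, norm_smul, Real.norm_eq_abs, abs_of_nonneg h0]
    exact mul_le_of_le_one_left (norm_nonneg _) h1
  rw [norm_S3] at h4
  linarith

/-- **Close maps to the sphere are homotopic.** -/
theorem homotopic_of_close {g f : C(N, S3)} (h : ∀ x, dist (g x) (f x) < 1) : g.Homotopic f := by
  have hne : ∀ p : unitInterval × N,
      ‖(1 - (p.1 : ℝ)) • (g p.2 : ℍ[ℝ]) + (p.1 : ℝ) • (f p.2 : ℍ[ℝ])‖ ≠ 0 := fun p =>
    norm_ne_zero_iff.2 (seg_ne (h p.2) p.1.2.1 p.1.2.2)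
  have hc : Continuous fun p : unitInterval × N =>
      (1 - (p.1 : ℝ)) • (g p.2 : ℍ[ℝ]) + (p.1 : ℝ) • (f p.2 : ℍ[ℝ]) := by
    have e1 : Continuous fun p : unitInterval × N => (p.1 : ℝ) :=
      continuous_subtype_val.comp continuous_fst
    have e2 : Continuous fun p : unitInterval × N => (g p.2 : ℍ[ℝ]) :=
      continuous_subtype_val.comp (g.continuous.comp continuous_snd)
    have e3 : Continuous fun p : unitInterval × N => (f p.2 : ℍ[ℝ]) :=
      continuous_subtype_val.comp (f.continuous.comp continuous_snd)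
    exact ((continuous_const.sub e1).smul e2).add (e1.smul e3)
  refine ⟨⟨⟨fun p => ⟨‖(1 - (p.1 : ℝ)) • (g p.2 : ℍ[ℝ]) + (p.1 : ℝ) • (f p.2 : ℍ[ℝ])‖⁻¹ •
    ((1 - (p.1 : ℝ)) • (g p.2 : ℍ[ℝ]) + (p.1 : ℝ) • (f p.2 : ℍ[ℝ])), ?_⟩, ?_⟩, fun x => ?_,
    fun x => ?_⟩⟩
  · rw [mem_sphere_zero_iff_norm, norm_smul, norm_inv, norm_norm, inv_mul_cancel₀ (hne p)]
  · exact ((hc.norm.inv₀ hne).smul hc).subtype_mk _
  · refine Subtype.ext ?_
    show ‖(1 - ((0 : unitInterval) : ℝ)) • (g x : ℍ[ℝ]) + ((0 : unitInterval) : ℝ) • (f x : ℍ[ℝ])‖⁻¹ •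
      ((1 - ((0 : unitInterval) : ℝ)) • (g x : ℍ[ℝ]) + ((0 : unitInterval) : ℝ) • (f x : ℍ[ℝ])) = g x
    simp [norm_S3]
  · refine Subtype.ext ?_
    show ‖(1 - ((1 : unitInterval) : ℝ)) • (g x : ℍ[ℝ]) + ((1 : unitInterval) : ℝ) • (f x : ℍ[ℝ])‖⁻¹ •
      ((1 - ((1 : unitInterval) : ℝ)) • (g x : ℍ[ℝ]) + ((1 : unitInterval) : ℝ) • (f x : ℍ[ℝ])) = f x
    simp [norm_S3]

/-- the difference of exact cochains -/
theorem exL_of_sub {k : Type} [Field k] {X : Type} [PseudoMetricSpace X] {A : Set X} {n : ℕ}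
    {u v : List X → k} (h : ExL A n fun l => u l - v l) (h' : ExL A n v) : ExL A n u := by
  obtain ⟨s, hs0, δ, hδ, hs⟩ := h
  obtain ⟨t, ht0, η, hη, ht⟩ := h'
  refine ⟨fun l => s l + t l, fun h0 l => ?_, min δ η, lt_min hδ hη, fun l hl hsm => ?_⟩
  · show s l + t l = 0
    rw [hs0 h0, ht0 h0, add_zero]
  · have e1 : u l - v l = dl s l := hs l hl (hsm.mono le_rfl (min_le_left _ _))
    rw [PS.dl_add, ← e1, ← ht l hl (hsm.mono le_rfl (min_le_right _ _)), sub_add_cancel]

end Lip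

section Main

variable {E : Type} [NormedAddCommGroup E] [NormedSpace ℝ E] [FiniteDimensional ℝ E]
  {N : Type} [MetricSpace N] [CompactSpace N] [ChartedSpace E N]

include E

/-- **C1.** A closed simply connected three dimensional manifold has a Lipschitz map onto the unit
quaternions which is injective on the third cohomology, for every field, and maps a given point to
`1`. -/
theorem exists_collapse [SimplyConnectedSpace N] (h3 : Module.finrank ℝ E = 3) (x₀ : N) :
    ∃ (f : C(N, S3)) (K : ℝ), 0 < K ∧ (∀ x y, dist (f x) (f y) ≤ K * dist x y) ∧ f x₀ = 1 ∧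
      ∀ (k : Type) [Field k] (w : List S3 → k), CocL (univ : Set S3) 3 w →
        ¬ ExL (univ : Set S3) 3 w → ¬ ExL (univ : Set N) 3 (fun l => w (l.map f)) := by
  have loc : LocEuc N 3 := h3 ▸ Ch2.D907.cub E N
  haveI : LocallyPathConnectedSpace N := ChartedSpace.locallyPathConnectedSpace E N
  obtain ⟨c, hc, hc0⟩ := loc x₀
  obtain ⟨f₁, K, hK, hf₁, hd⟩ := exists_lip_S3 ⟨col c, continuous_col c⟩
    (show (0 : ℝ) < 1 / 4 by norm_num)
  have hg0 : col c x₀ = 1 := by rw [col_of_mem hc, hc0, G_zero]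
  have hcm : Continuous fun x : S3 => (f₁ x₀)⁻¹ * x :=
    (Isometry.of_dist_eq fun a b => dist_mul_left _ a b).continuous
  refine ⟨⟨fun x => (f₁ x₀)⁻¹ * f₁ x, hcm.comp f₁.continuous⟩, K, hK, fun x y => ?_, ?_,
    fun k _ w hw hw0 hex => ?_⟩
  · change dist ((f₁ x₀)⁻¹ * f₁ x) ((f₁ x₀)⁻¹ * f₁ y) ≤ _
    rw [dist_mul_left]
    exact hf₁ x y
  · exact inv_mul_cancel _
  · obtain ⟨ω, hω⟩ := exists_top_ne (M := N) (k := k) (Ch2.ok k) (by norm_num) loc
    refine col_not_exL c loc hω hw hw0 ?_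
    have hh : (⟨col c, continuous_col c⟩ : C(N, S3)).Homotopic
        ⟨fun x => (f₁ x₀)⁻¹ * f₁ x, hcm.comp f₁.continuous⟩ := by
      refine homotopic_of_close fun x => ?_
      change dist (col c x) ((f₁ x₀)⁻¹ * f₁ x) < 1
      have e1 : dist (1 * col c x) ((f₁ x₀)⁻¹ * f₁ x) ≤ dist 1 (f₁ x₀)⁻¹ + dist (col c x) (f₁ x) :=
        dist_mul_mul_le _ _ _ _
      have e2 : dist (1 : S3) (f₁ x₀)⁻¹ = dist (f₁ x₀) (col c x₀) := by
        have e5 := dist_inv_inv (1 : S3) (f₁ x₀)
        rw [inv_one] at e5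
        rw [hg0, e5, dist_comm]
      have e3 : dist (f₁ x₀) (col c x₀) ≤ 1 / 4 := hd x₀
      have e4 : dist (f₁ x) (col c x) ≤ 1 / 4 := hd x
      rw [one_mul, e2, dist_comm (col c x) (f₁ x)] at e1
      linarith
    exact exL_of_sub (D133.exL_htpy hh hw) hex

end Main

end Vale.Agent.P216.T539
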