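import Vale.Agent.P216.V609.Growth
import Vale.Agent.P216.H934D.BaseK
import Vale.Agent.P216.D133.KSeq

/-!
# P216-T, BF: finiteness at a low level from the cohomology of the base, every field

`finK_of_base`: the cohomology of `M` over `k` is finite, from `BaseK k M d h`; `baseFinK_of_finK`:
the input `BaseFinK` of the finiteness at all regular levels, for every field (characteristic two
included); `baseFinK_of_base`, `finAt_of_base`.
-/

set_option linter.all false

open Set Topology
open Module (finrank)

namespace Vale.Agent.P216.T539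

open AS GM B64 B633 B609 Low DV706 H651 MV337
open Vale.Agent.P216.H288 Vale.Agent.P216.H494 Vale.Agent.P216.L250
open Vale.Agent.P216.Sl
open Vale.Agent.P216.N929 (Coc)
open Vale.Agent.P216.H133C (pw)

/-- the cohomology of `M` over `k` is finite -/
def FinK (k : Type) [Field k] (M : Type) [MetricSpace M] : Prop :=
  (∀ q, Module.Finite k (HU k (univ : Set M) q)) ∧
    ∃ N, ∀ q ≥ N, Subsingleton (HU k (univ : Set M) q)

/-- Finiteness of the cohomology from the description of the base. -/
theorem finK_of_base {k : Type} [Field k] {M : Type} [MetricSpace M] {d h : ℕ} (hd : 1 ≤ d)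
    (b : H934D.BaseK k M d h) : FinK k M := by
  have hco : ∀ j, CocL (univ : Set M) (d * j) (pw b.ξ d j) := fun j =>
    D133.pw_cocL b.hε b.cξ j
  have hz : ∀ q, (∀ j ≤ h, q ≠ d * j) → ∀ z : HU k (univ : Set M) q, z = 0 := by
    intro q hq z
    obtain ⟨f, hf, -, rfl⟩ := exists_cls z
    exact cls_eq_zero.2 (b.zero q hq f hf)
  refine ⟨fun q => ?_, d * h + 1, fun q hq => ⟨fun x y => ?_⟩⟩
  · by_cases hq : ∀ j ≤ h, q ≠ d * j
    · have : Subsingleton (HU k (univ : Set M) q) := ⟨fun x y => by rw [hz q hq x, hz q hq y]⟩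
      infer_instance
    · push Not at hq
      obtain ⟨j, hj, rfl⟩ := hq
      refine Module.Finite.of_surjective
        (LinearMap.toSpanSingleton k (HU k (univ : Set M) (d * j)) (cls (a0 M) (c0 k) _ (hco j)))
        fun z => ?_
      obtain ⟨f, hf, -, rfl⟩ := exists_cls z
      obtain ⟨a, ha⟩ := b.line j hj f hf
      refine ⟨a, ?_⟩
      rw [LinearMap.toSpanSingleton_apply, cls_smul]
      exact (cls_eq_cls.2 ha).symm
  · have hq' : ∀ j ≤ h, q ≠ d * j := fun j hj he => by
      have := Nat.mul_le_mul_left d hj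
      omega
    rw [hz q hq' x, hz q hq' y]

section

variable {M : Type} [MetricSpace M] [CompactSpace M] (G : GeoList M)
  (hD : DescentStmt (Hol.triv : Hol M) G)

/-- **Finiteness at a low level** from the finiteness of the cohomology of `M`, one field, no
condition on the characteristic. -/
theorem baseFinK_of_finK (k : Type) [Field k] (hF : FinK k M) :
    (mkGSys Hol.triv G hD).BaseFinK k := by
  obtain ⟨s₁, hr⟩ := exists_retr (Hol.triv : Hol M) G hD
  obtain ⟨s₀, h0, h1, h2'⟩ := GSys.exists_lt_ℓ (mkGSys Hol.triv G hD) hr.pos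
  have key : ∀ q, ∃ e : (mkGSys Hol.triv G hD).V k s₀ q →ₗ[k] Hu k (univ : Set M) q,
      Function.Bijective e := by
    intro q
    have hb := hr.res_bijective (k := k) h0 h1 h2' q
    have hs := sec_bijective (k := k) (Hol.triv : Hol M) q
    have h3 : ∀ Y, (mkGSys Hol.triv G hD).X 0 = Y →
        ∃ e : (mkGSys Hol.triv G hD).V k s₀ q →ₗ[k]
        Ha (fun _ : Unit => deckC) (fun _ : Unit => (-1 : k)) Y q, Function.Bijective e := by
      rintro _ rfl
      exact ⟨_, hb⟩
    obtain ⟨e, he⟩ := h3 _ (XX_eq le_rfl)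
    exact ⟨(AS.Hmap (isMor_sec (k := k) (Hol.triv : Hol M)) q) ∘ₗ e, by
      rw [LinearMap.coe_comp]
      exact hs.comp he⟩
  obtain ⟨h4, N, h5⟩ := hF
  refine ⟨s₀, h0, h2', fun q => ?_, N, fun q hq => ?_⟩
  · obtain ⟨e, he⟩ := key q
    obtain ⟨e', he'⟩ := hinc_bijective k (univ : Set M) q
    have := h4 q
    have := Module.Finite.of_surjective e' he'.2
    exact Module.Finite.equiv (LinearEquiv.ofBijective e he).symm
  · obtain ⟨e, he⟩ := key q
    obtain ⟨e', he'⟩ := hinc_bijective k (univ : Set M) q
    have := h5 q hq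
    have := he'.2.subsingleton
    exact he.1.subsingleton

/-- **BF.** -/
theorem baseFinK_of_base (k : Type) [Field k] {d h : ℕ} (hd : 1 ≤ d) (b : H934D.BaseK k M d h) :
    (mkGSys Hol.triv G hD).BaseFinK k := baseFinK_of_finK G hD k (finK_of_base hd b)

end

end Vale.Agent.P216.T539
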