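import Vale.Agent.P216.Q633.Quat

/-!
# P216-T, C1: the collapse of the cube onto the three sphere

`G : (Fin 3 → ℝ) → S3` maps the open unit cube homeomorphically onto the complement of the point
`pG`, and everything else to `pG`; `G 0 = 1`.
-/

set_option linter.all false

open Set Filter Topology Quaternion

noncomputable section

namespace Vale.Agent.P216.T539

open Q633

/-- the quaternion with given coordinates -/
def mk4 (a b c d : ℝ) : ℍ[ℝ] := Quaternion.linearIsometryEquivTuple.symm (WithLp.toLp 2 ![a, b, c, d])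

@[simp] theorem mk4_re (a b c d : ℝ) : (mk4 a b c d).re = a := rfl
@[simp] theorem mk4_i (a b c d : ℝ) : (mk4 a b c d).imI = b := rfl
@[simp] theorem mk4_j (a b c d : ℝ) : (mk4 a b c d).imJ = c := rfl
@[simp] theorem mk4_k (a b c d : ℝ) : (mk4 a b c d).imK = d := rfl

theorem norm_mk4 {a b c d : ℝ} (h : a ^ 2 + b ^ 2 + c ^ 2 + d ^ 2 = 1) : ‖mk4 a b c d‖ = 1 := by
  have h1 : ‖mk4 a b c d‖ * ‖mk4 a b c d‖ = 1 := by
    rw [← Quaternion.normSq_eq_norm_mul_self, Quaternion.normSq_def', mk4_re, mk4_i, mk4_j,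
      mk4_k, h]
  nlinarith [norm_nonneg (mk4 a b c d)]

theorem continuous_mk4 {X : Type*} [TopologicalSpace X] {a b c d : X → ℝ} (ha : Continuous a)
    (hb : Continuous b) (hc : Continuous c) (hd : Continuous d) :
    Continuous fun x => mk4 (a x) (b x) (c x) (d x) := by
  refine Quaternion.linearIsometryEquivTuple.symm.continuous.comp
    ((PiLp.continuous_toLp 2 _).comp ?_)
  refine continuous_pi fun i => ?_
  fin_cases i
  · exact ha
  · exact hb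
  · exact hc
  · exact hd

/-- sum of the squares -/
def nq (y : Fin 3 → ℝ) : ℝ := y 0 ^ 2 + y 1 ^ 2 + y 2 ^ 2

/-- distance to the boundary of the cube -/
def sd (y : Fin 3 → ℝ) : ℝ := max 0 (1 - ‖y‖)

theorem nq_nonneg (y : Fin 3 → ℝ) : 0 ≤ nq y := by
  unfold nq
  positivity

theorem sd_nonneg (y : Fin 3 → ℝ) : 0 ≤ sd y := le_max_left _ _

theorem nq_pos {y : Fin 3 → ℝ} (hy : y ≠ 0) : 0 < nq y := by
  refine lt_of_le_of_ne (nq_nonneg y) fun h => hy ?_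
  unfold nq at h
  have h0 : y 0 ^ 2 = 0 := by nlinarith [sq_nonneg (y 0), sq_nonneg (y 1), sq_nonneg (y 2)]
  have h1 : y 1 ^ 2 = 0 := by nlinarith [sq_nonneg (y 0), sq_nonneg (y 1), sq_nonneg (y 2)]
  have h2 : y 2 ^ 2 = 0 := by nlinarith [sq_nonneg (y 0), sq_nonneg (y 1), sq_nonneg (y 2)]
  funext i
  fin_cases i
  · exact pow_eq_zero_iff (two_ne_zero) |>.1 h0
  · exact pow_eq_zero_iff (two_ne_zero) |>.1 h1
  · exact pow_eq_zero_iff (two_ne_zero) |>.1 h2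

theorem den_pos (y : Fin 3 → ℝ) : 0 < sd y ^ 2 + nq y := by
  rcases eq_or_ne y 0 with rfl | hy
  · have : sd (0 : Fin 3 → ℝ) = 1 := by simp [sd]
    rw [this]
    have := nq_nonneg (0 : Fin 3 → ℝ)
    linarith
  · have := nq_pos hy
    positivity

theorem continuous_nq : Continuous nq := by
  unfold nq
  fun_prop

theorem continuous_sd : Continuous sd := by
  unfold sd
  fun_prop

/-- the map to the quaternions -/
def Pq (y : Fin 3 → ℝ) : ℍ[ℝ] :=
  mk4 ((sd y ^ 2 - nq y) / (sd y ^ 2 + nq y)) (2 * sd y * y 0 / (sd y ^ 2 + nq y))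
    (2 * sd y * y 1 / (sd y ^ 2 + nq y)) (2 * sd y * y 2 / (sd y ^ 2 + nq y))

theorem continuous_Pq : Continuous Pq := by
  have h1 := continuous_nq
  have h2 := continuous_sd
  have h3 : ∀ y, sd y ^ 2 + nq y ≠ 0 := fun y => (den_pos y).ne'
  unfold Pq
  refine continuous_mk4 ?_ ?_ ?_ ?_
  · exact ((h2.pow 2).sub h1).div ((h2.pow 2).add h1) h3
  · exact ((continuous_const.mul h2).mul (continuous_apply 0)).div ((h2.pow 2).add h1) h3
  · exact ((continuous_const.mul h2).mul (continuous_apply 1)).div ((h2.pow 2).add h1) h3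
  · exact ((continuous_const.mul h2).mul (continuous_apply 2)).div ((h2.pow 2).add h1) h3

theorem norm_Pq (y : Fin 3 → ℝ) : ‖Pq y‖ = 1 := by
  have h := (den_pos y).ne'
  refine norm_mk4 ?_
  rw [div_pow, div_pow, div_pow, div_pow, ← add_div, ← add_div, ← add_div,
    div_eq_one_iff_eq (pow_ne_zero 2 h)]
  unfold nq
  ring

/-- the map to the sphere -/
def P0 (y : Fin 3 → ℝ) : S3 := ⟨Pq y, by rw [mem_sphere_zero_iff_norm, norm_Pq]⟩

theorem continuous_P0 : Continuous P0 := continuous_Pq.subtype_mk _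

/-- the pole -/
def sp : S3 := ⟨mk4 (-1) 0 0 0, by
  rw [mem_sphere_zero_iff_norm]
  exact norm_mk4 (by norm_num)⟩

theorem P0_out {y : Fin 3 → ℝ} (hy : 1 ≤ ‖y‖) : P0 y = sp := by
  have hs : sd y = 0 := max_eq_left (by linarith)
  have hn : nq y ≠ 0 := by
    have := den_pos y
    rw [hs] at this
    have h2 : (0 : ℝ) ^ 2 = 0 := by norm_num
    rw [h2, zero_add] at this
    exact this.ne'
  refine Subtype.ext ?_
  change Pq y = mk4 (-1) 0 0 0
  unfold Pq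
  rw [hs]
  congr 1
  · rw [show (0 : ℝ) ^ 2 - nq y = -nq y by ring, show (0 : ℝ) ^ 2 + nq y = nq y by ring,
      neg_div, div_self hn]
  · ring
  · ring
  · ring

/-- the inverse -/
def Qi (v : ℍ[ℝ]) : Fin 3 → ℝ :=
  (1 + ‖(1 + v.re)⁻¹ • (![v.imI, v.imJ, v.imK] : Fin 3 → ℝ)‖)⁻¹ •
    ((1 + v.re)⁻¹ • (![v.imI, v.imJ, v.imK] : Fin 3 → ℝ))

theorem Qi_Pq {y : Fin 3 → ℝ} (hy : ‖y‖ < 1) : Qi (Pq y) = y := by
  have hs : sd y = 1 - ‖y‖ := max_eq_right (by linarith)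
  have hs0 : 0 < sd y := by rw [hs]; linarith
  have hd := den_pos y
  have h1 : 1 + (Pq y).re = 2 * sd y ^ 2 / (sd y ^ 2 + nq y) := by
    change 1 + (sd y ^ 2 - nq y) / (sd y ^ 2 + nq y) = _
    rw [eq_div_iff hd.ne', add_mul, div_mul_cancel₀ _ hd.ne']
    ring
  have h2 : (1 + (Pq y).re)⁻¹ • (![(Pq y).imI, (Pq y).imJ, (Pq y).imK] : Fin 3 → ℝ) =
      (sd y)⁻¹ • y := by
    have h3 : ∀ t : ℝ, (1 + (Pq y).re)⁻¹ * (2 * sd y * t / (sd y ^ 2 + nq y)) =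
        (sd y)⁻¹ * t := by
      intro t
      rw [h1]
      field_simp
    funext i
    fin_cases i
    · exact h3 _
    · exact h3 _
    · exact h3 _
  have h4 : (1 + ‖(sd y)⁻¹ • y‖)⁻¹ = sd y := by
    rw [norm_smul, Real.norm_eq_abs, abs_of_pos (inv_pos.2 hs0)]
    have : 1 + (sd y)⁻¹ * ‖y‖ = (sd y)⁻¹ := by
      rw [show ‖y‖ = 1 - sd y by rw [hs]; ring]
      field_simp
      ring
    rw [this, inv_inv]
  rw [Qi, h2, h4, smul_smul, mul_inv_cancel₀ hs0.ne', one_smul]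

theorem norm_Qi_lt (v : ℍ[ℝ]) : ‖Qi v‖ < 1 := by
  unfold Qi
  set z := (1 + v.re)⁻¹ • (![v.imI, v.imJ, v.imK] : Fin 3 → ℝ)
  have h : 0 < 1 + ‖z‖ := by positivity
  rw [norm_smul, Real.norm_eq_abs, abs_of_pos (inv_pos.2 h), inv_mul_lt_iff₀ h]
  linarith

theorem Pq_Qi {v : ℍ[ℝ]} (hv : ‖v‖ = 1) (h0 : v.re ≠ -1) : Pq (Qi v) = v := by
  have hn : v.re ^ 2 + v.imI ^ 2 + v.imJ ^ 2 + v.imK ^ 2 = 1 := by
    have h := Quaternion.normSq_eq_norm_mul_self v
    rw [hv, Quaternion.normSq_def'] at h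
    linarith
  have ha : 1 + v.re ≠ 0 := fun h => h0 (by linarith)
  set z := (1 + v.re)⁻¹ • (![v.imI, v.imJ, v.imK] : Fin 3 → ℝ) with hz
  have z0 : z 0 = v.imI / (1 + v.re) := by rw [hz]; simp [div_eq_inv_mul]
  have z1 : z 1 = v.imJ / (1 + v.re) := by rw [hz]; simp [div_eq_inv_mul]
  have z2 : z 2 = v.imK / (1 + v.re) := by rw [hz]; simp [div_eq_inv_mul]
  have hp : 0 < 1 + ‖z‖ := by positivity
  have hs : sd (Qi v) = (1 + ‖z‖)⁻¹ := by
    have h1 : ‖Qi v‖ = (1 + ‖z‖)⁻¹ * ‖z‖ := by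
      unfold Qi
      rw [← hz, norm_smul, Real.norm_eq_abs, abs_of_pos (inv_pos.2 hp)]
    rw [sd, max_eq_right (by linarith [norm_Qi_lt v]), h1]
    field_simp
    ring
  set s := (1 + ‖z‖)⁻¹ with hsd
  have hs0 : 0 < s := inv_pos.2 hp
  have hQ : Qi v = s • z := rfl
  have hnz : nq z = (1 - v.re) / (1 + v.re) := by
    unfold nq
    rw [z0, z1, z2]
    field_simp
    nlinarith
  have hnq : nq (Qi v) = s ^ 2 * nq z := by
    rw [hQ]
    unfold nq
    simp only [Pi.smul_apply, smul_eq_mul]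
    ring
  have hden : s ^ 2 + s ^ 2 * nq z = 2 * s ^ 2 / (1 + v.re) := by
    rw [hnz]
    field_simp
    ring
  have hnum : s ^ 2 - s ^ 2 * nq z = 2 * s ^ 2 * v.re / (1 + v.re) := by
    rw [hnz]
    field_simp
    ring
  have hc : ∀ (i : Fin 3) (t : ℝ), z i = t / (1 + v.re) →
      2 * s * (s • z) i / (2 * s ^ 2 / (1 + v.re)) = t := by
    intro i t h
    rw [Pi.smul_apply, smul_eq_mul, h]
    field_simp
  unfold Pq
  rw [hs, hnq, hden, hnum, hQ]
  ext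
  · change 2 * s ^ 2 * v.re / (1 + v.re) / (2 * s ^ 2 / (1 + v.re)) = v.re
    field_simp
  · exact hc 0 _ z0
  · exact hc 1 _ z1
  · exact hc 2 _ z2

/-- the collapse of the cube -/
def G (y : Fin 3 → ℝ) : S3 := (P0 0)⁻¹ * P0 y

/-- the exceptional point -/
def pG : S3 := (P0 0)⁻¹ * sp

theorem G_zero : G 0 = 1 := inv_mul_cancel _

theorem continuous_G : Continuous G := by
  have h : Continuous fun x : S3 => (P0 0)⁻¹ * x :=
    (Isometry.of_dist_eq fun a b => dist_mul_left _ a b).continuous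
  exact h.comp continuous_P0

theorem G_out {y : Fin 3 → ℝ} (hy : 1 ≤ ‖y‖) : G y = pG := by rw [G, P0_out hy, pG]

theorem G_inj {y y' : Fin 3 → ℝ} (hy : ‖y‖ < 1) (hy' : ‖y'‖ < 1) (h : G y = G y') : y = y' := by
  have h1 : P0 y = P0 y' := mul_left_cancel h
  have h2 : Pq y = Pq y' := congrArg Subtype.val h1
  rw [← Qi_Pq hy, ← Qi_Pq hy', h2]

theorem G_in {y : Fin 3 → ℝ} (hy : ‖y‖ < 1) : G y ≠ pG := by
  intro h
  have h1 : P0 y = sp := mul_left_cancel h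
  have h2 : Pq y = mk4 (-1) 0 0 0 := congrArg Subtype.val h1
  have h3 : (sd y ^ 2 - nq y) / (sd y ^ 2 + nq y) = -1 := congrArg (fun q : ℍ[ℝ] => q.re) h2
  have hs : sd y = 1 - ‖y‖ := max_eq_right (by linarith)
  have hs0 : 0 < sd y := by rw [hs]; linarith
  rw [div_eq_iff (den_pos y).ne'] at h3
  nlinarith

theorem G_surj {v : S3} (hv : v ≠ pG) : ∃ y, ‖y‖ < 1 ∧ G y = v := by
  set u : S3 := P0 0 * v with hu
  have hu1 : ‖(u : ℍ[ℝ])‖ = 1 := norm_S3 u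
  have hre : (u : ℍ[ℝ]).re ≠ -1 := by
    intro h
    have hn : (u : ℍ[ℝ]).re ^ 2 + (u : ℍ[ℝ]).imI ^ 2 + (u : ℍ[ℝ]).imJ ^ 2 + (u : ℍ[ℝ]).imK ^ 2 = 1 := by
      have h := Quaternion.normSq_eq_norm_mul_self (u : ℍ[ℝ])
      rw [hu1, Quaternion.normSq_def'] at h
      linarith
    rw [h] at hn
    have e1 : (u : ℍ[ℝ]).imI ^ 2 = 0 := by
      nlinarith [sq_nonneg (u : ℍ[ℝ]).imI, sq_nonneg (u : ℍ[ℝ]).imJ, sq_nonneg (u : ℍ[ℝ]).imK]
    have e2 : (u : ℍ[ℝ]).imJ ^ 2 = 0 := by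
      nlinarith [sq_nonneg (u : ℍ[ℝ]).imI, sq_nonneg (u : ℍ[ℝ]).imJ, sq_nonneg (u : ℍ[ℝ]).imK]
    have e3 : (u : ℍ[ℝ]).imK ^ 2 = 0 := by
      nlinarith [sq_nonneg (u : ℍ[ℝ]).imI, sq_nonneg (u : ℍ[ℝ]).imJ, sq_nonneg (u : ℍ[ℝ]).imK]
    have e : u = sp := by
      refine Subtype.ext ?_
      ext
      · exact h
      · exact (pow_eq_zero_iff two_ne_zero).1 e1
      · exact (pow_eq_zero_iff two_ne_zero).1 e2
      · exact (pow_eq_zero_iff two_ne_zero).1 e3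
    refine hv ?_
    rw [pG, ← e, hu, inv_mul_cancel_left]
  refine ⟨Qi u, norm_Qi_lt _, ?_⟩
  have h1 : P0 (Qi u) = u := Subtype.ext (Pq_Qi hu1 hre)
  rw [G, h1, hu, inv_mul_cancel_left]

end Vale.Agent.P216.T539
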